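import Vale.Agent.P352.BW.G2
import Vale.Agent.P352.BW.E
import Vale.Agent.P352.BW.U
import Vale.Agent.P352.HM.Geo584
import Vale.Agent.P352.H846.Sw1

/-!
# P352 BW: block G3
-/

set_option linter.all false

noncomputable section

open MeasureTheory Filter Topology

namespace Vale.Agent.P352.BW.H26

open GF (Ix V Fn Fld Theory IsLor bas eta o sim)
open H246 H496 H755 H15
open H746 (nrt sim_nrt nrt_fix isLor_nrt nrt_row)
open Vale.Agent.P132 (ModData)
open UniformSpace (Completion)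

variable {D : Type*} [NormedAddCommGroup D] [InnerProductSpace ℂ D] {Q : Theory D}
  {A : (V → V) → D → D} {𝒜 : Set V → VonNeumannAlgebra (Completion D)}

/-! ### Composition of Poincaré transformations -/

lemma sim_row (L : Ix → V) (m : Ix) : L m = sim 1 L 0 (bas m 1) := by
  funext n
  simp [sim, bas]

lemma sim_at0 (L : Ix → V) (y x : V) : sim 1 L y x = sim 1 L 0 x + y := HM.sim_at 1 L y x

lemma sim_N (a w y x : V) : sim 1 (nrt a w) y x = x - (2 * GF.mdot w x) • a +
    (2 * GF.mdot a x) • w - (2 * GF.mdot w w * GF.mdot a x) • a + y := by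
  rw [sim_at0, sim_nrt]

lemma sim_00 (L : Ix → V) : sim 1 L 0 0 = 0 := by
  funext n
  simp [sim]

/-- two compositions of Poincaré transformations that agree as maps -/
lemma Ue_eq4 (hU : UStmt Q A) {L L' M M' : Ix → V} (hL : IsLor L) (hL' : IsLor L')
    (hM : IsLor M) (hM' : IsLor M') {y y' u u' : V}
    (h : ∀ x, sim 1 L y (sim 1 L' y' x) = sim 1 M u (sim 1 M' u' x)) (z : Completion D) :
    Ue Q 1 L y (Ue Q 1 L' y' z) = Ue Q 1 M u (Ue Q 1 M' u' z) := by
  rw [hU.mul 1 L y 1 L' y' z one_pos one_pos hL hL',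
    hU.mul 1 M u 1 M' u' z one_pos one_pos hM hM']
  have h0 : sim 1 L y y' = sim 1 M u u' := by
    have h1 := h 0
    rwa [sim_at0 L' y' 0, sim_at0 M' u' 0, sim_00, sim_00, zero_add, zero_add] at h1
  have h1 : (fun m => sim 1 L 0 (L' m)) = fun m => sim 1 M 0 (M' m) := by
    funext m
    have h2 := h (bas m 1)
    rw [sim_at0 L' y', sim_at0 M' u', ← sim_row, ← sim_row, sim_at0 L, sim_at0 M, simL_add,
      simL_add] at h2
    rw [sim_at0 L, sim_at0 M] at h0
    have h3 : sim 1 L 0 (L' m) + (sim 1 L 0 y' + y) = sim 1 M 0 (M' m) + (sim 1 M 0 u' + u) := by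
      rw [← add_assoc, ← add_assoc]
      exact h2
    rw [h0] at h3
    exact add_right_cancel h3
  rw [h0, h1]

lemma isLor_1 : IsLor GF.one := isLor_one

lemma sim_one0 (x : V) : sim 1 GF.one 0 x = x := by
  rw [HM.sim_tr, add_zero]

/-- a composition of Poincaré transformations -/
lemma Ue_cmp (hU : UStmt Q A) {L L' M : Ix → V} (hL : IsLor L) (hL' : IsLor L')
    (hM : IsLor M) {y y' u : V}
    (h : ∀ x, sim 1 L y (sim 1 L' y' x) = sim 1 M u x) (z : Completion D) :
    Ue Q 1 L y (Ue Q 1 L' y' z) = Ue Q 1 M u z := by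
  have h1 := Ue_eq4 (M' := GF.one) (u' := 0) hU hL hL' hM isLor_1
    (fun x => by rw [sim_one0]; exact h x) z
  rwa [Ue_one] at h1

lemma Ue_inj (hU : UStmt Q A) {L : Ix → V} (hL : IsLor L) {y : V} {p q : Completion D}
    (h : Ue Q 1 L y p = Ue Q 1 L y q) : p = q := by
  obtain ⟨W, hW⟩ := hU.lin 1 L y one_pos hL
  rw [← hW, ← hW] at h
  exact W.injective h

lemma Ue_surj (hU : UStmt Q A) {L : Ix → V} (hL : IsLor L) (y : V) (q : Completion D) :
    ∃ p, Ue Q 1 L y p = q := by
  obtain ⟨W, hW⟩ := hU.lin 1 L y one_pos hL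
  exact ⟨W.symm q, by rw [← hW]; exact W.apply_symm_apply q⟩

lemma Ue_tt (hU : UStmt Q A) (x y : V) (z : Completion D) :
    Ue Q 1 GF.one x (Ue Q 1 GF.one y z) = Ue Q 1 GF.one (x + y) z :=
  Ue_cmp hU isLor_1 isLor_1 isLor_1 (fun p => by rw [HM.sim_tr, HM.sim_tr, HM.sim_tr]; abel) z

/-! ### The relation from the self maps of the regions -/

/-- `P_δ`, the null rotation with a translation along `a` -/
def P (Q : Theory D) (a w : V) (c : ℝ) (z : Completion D) : Completion D :=
  Ue Q 1 (nrt a (c • w)) (-(c * GF.mdot w w) • a) z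

section rel

variable {a b w : V}

lemma lor_c (ha : IsNull a) (haw : GF.mdot a w = 0) (c : ℝ) : IsLor (nrt a (c • w)) :=
  isLor_nrt ha (by rw [md_smul, haw, mul_zero])

lemma P_add (hU : UStmt Q A) (ha : IsNull a) (haw : GF.mdot a w = 0) (c d : ℝ)
    (z : Completion D) : P Q a w c (P Q a w d z) = P Q a w (c + d) z := by
  have hwa : GF.mdot w a = 0 := by rw [md_comm, haw]
  refine Ue_cmp hU (lor_c ha haw c) (lor_c ha haw d) (lor_c ha haw (c + d)) (fun x => ?_) z
  rw [sim_N, sim_N, sim_N]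
  simp only [md_add, md_sub, md_smul, md_add_l, md_sub_l, md_smul_l, haw, hwa, ha.1]
  module

lemma P_surj (hU : UStmt Q A) (ha : IsNull a) (haw : GF.mdot a w = 0) (c : ℝ)
    (z : Completion D) : ∃ p, P Q a w c p = z := Ue_surj hU (lor_c ha haw c) _ z

lemma P_inj (hU : UStmt Q A) (ha : IsNull a) (haw : GF.mdot a w = 0) (c : ℝ)
    {p q : Completion D} (h : P Q a w c p = P Q a w c q) : p = q := Ue_inj hU (lor_c ha haw c) h

lemma P_g (hU : UStmt Q A) (ha : IsNull a) (haw : GF.mdot a w = 0) (c : ℝ)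
    (z : Completion D) : Ue Q 1 GF.one w (P Q a w c z) =
      Ue Q 1 (nrt a (c • w)) (w - (c * GF.mdot w w) • a) z := by
  refine Ue_cmp hU isLor_1 (lor_c ha haw c) (lor_c ha haw c) (fun x => ?_) z
  rw [HM.sim_tr, sim_N, sim_N]
  module

/-- the relation between the null deformation and the self maps of the regions -/
lemma key_g (hE : EStmt (Completion D)) (hU : UStmt Q A) (h : VNet Q A 𝒜) (ha : IsNull a)
    (hb : IsNull b) (hab : GF.mdot a b = 1) {S : ℝ → Completion D →L[ℂ] Completion D}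
    (hN : Nd Q 𝒜 a b S) (E : ModData (𝒜 (Wdg a b 0)) (om Q))
    (hF : ∀ c : ℝ, 0 < c → Nonempty (ModData (𝒜 (HM.Rg a b c)) (om Q)))
    (haw : GF.mdot a w = 0) (hbw : GF.mdot b w = 0) {μ r : ℝ} (hμ : 0 < μ) (hr : 0 < μ + r)
    (z : Completion D) :
    S r (Ue Q 1 (nrt a (μ • w)) (w - (μ * GF.mdot w w) • a) z) =
      Ue Q 1 (nrt a ((μ + r) • w)) (w - ((μ + r) * GF.mdot w w) • a) (S r z) := by
  obtain ⟨c, hc⟩ : ∃ c, c = μ + r := ⟨_, rfl⟩
  rw [← hc]
  rw [← hc] at hr
  obtain ⟨F⟩ := hF c hr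
  have hwa : GF.mdot w a = 0 := by rw [md_comm, haw]
  have hwb : GF.mdot w b = 0 := by rw [md_comm, hbw]
  have hba : GF.mdot b a = 1 := by rw [md_comm, hab]
  obtain ⟨t, ht⟩ : ∃ t : ℝ, t = -(Real.log (μ / c)) / (2 * Real.pi) := ⟨_, rfl⟩
  have hpi := Real.pi_pos
  have e1 : Real.exp (-(2 * Real.pi * t)) = μ / c := by
    have : -(2 * Real.pi * t) = Real.log (μ / c) := by
      rw [ht]
      field_simp
    rw [this, Real.exp_log (div_pos hμ hr)]
  have e2 : Real.exp (2 * Real.pi * t) = c / μ := by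
    have h1 : Real.exp (2 * Real.pi * t) = (Real.exp (-(2 * Real.pi * t)))⁻¹ := by
      rw [Real.exp_neg, inv_inv]
    rw [h1, e1, inv_div]
  have e0 : c * (1 - Real.exp (-(2 * Real.pi * t))) = r := by
    rw [e1]
    field_simp
    linarith
  -- the boost
  have hLor : IsLor (bst a b (c / μ - 1) (μ / c - 1)) := by
    refine isLor_bst ha hb hab (by
      have : 0 < c / μ := div_pos hr hμ
      linarith) ?_
    field_simp
    ring
  have hB : ∀ p : Completion D, E.U (-t) p = Ue Q 1 (bst a b (c / μ - 1) (μ / c - 1)) 0 p := by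
    intro p
    refine h.bw a b (-t) _ E p ha hb hab hLor fun x => ?_
    rw [sim_bst]
    have f1 : Real.exp (-(2 * Real.pi * -t)) = c / μ := by
      rw [← e2]
      congr 1
      ring
    have f2 : Real.exp (2 * Real.pi * -t) = μ / c := by
      rw [← e1]
      congr 1
      ring
    rw [f1, f2]
  have hS : ∀ p : Completion D, S r p = F.U t (Ue Q 1 (bst a b (c / μ - 1) (μ / c - 1)) 0 p) := by
    intro p
    rw [S_mod hN hr e0 E F, hB]
  have h2 := Ue_eq4 hU hLor (lor_c ha haw μ) (lor_c ha haw c) hLor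
    (y := 0) (y' := w - (μ * GF.mdot w w) • a) (u := w - (c * GF.mdot w w) • a) (u' := 0)
    (fun x => by
      rw [sim_N, sim_N, sim_bst, sim_bst]
      simp only [md_add, md_sub, md_smul, md_add_l, md_sub_l, md_smul_l, haw, hwa, hbw, hwb,
        hab, hba, ha.1]
      have hμ' := hμ.ne'
      have hc' := hr.ne'
      funext n
      simp only [Pi.add_apply, Pi.sub_apply, Pi.smul_apply, smul_eq_mul]
      field_simp
      ring) z
  have himg : sim 1 (nrt a (c • w)) (w - (c * GF.mdot w w) • a) '' HM.Rg a b c =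
      HM.Rg a b c := HM.H584.Rg_self ha hab haw hbw c
  rw [hS, hS, h2, nat_img hE hU h one_pos (lor_c ha haw c) himg F F]

variable (hU : UStmt Q A) (ha : IsNull a) (haw : GF.mdot a w = 0)
  {S : ℝ → Completion D →L[ℂ] Completion D}
  (hK : ∀ (μ r : ℝ), 0 < μ → 0 < μ + r → ∀ z : Completion D,
    S r (Ue Q 1 (nrt a (μ • w)) (w - (μ * GF.mdot w w) • a) z) =
      Ue Q 1 (nrt a ((μ + r) • w)) (w - ((μ + r) * GF.mdot w w) • a) (S r z))

include hU ha haw hK

lemma key_P {μ r : ℝ} (hμ : 0 < μ) (hr : 0 < μ + r) (z : Completion D) :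
    S r (Ue Q 1 GF.one w (P Q a w μ z)) = Ue Q 1 GF.one w (P Q a w (μ + r) (S r z)) := by
  rw [P_g hU ha haw, P_g hU ha haw]
  exact hK μ r hμ hr z

/-- the null deformations commute with `P_δ`, `δ > 0` -/
lemma comm_P {δ : ℝ} (hδ : 0 < δ) (r : ℝ) (z : Completion D) :
    S r (P Q a w δ z) = P Q a w δ (S r z) := by
  obtain ⟨μ, hμ, hr⟩ : ∃ μ : ℝ, 0 < μ ∧ 0 < μ + r := by
    refine ⟨|r| + 1, by positivity, ?_⟩
    have := neg_abs_le r
    linarith
  have h1 := key_P hU ha haw hK hμ hr (P Q a w δ z)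
  have h2 := key_P hU ha haw hK (μ := μ + δ) (r := r) (by linarith) (by linarith) z
  rw [← P_add hU ha haw μ δ z] at h2
  have h3 : P Q a w (μ + δ + r) (S r z) = P Q a w (μ + r) (P Q a w δ (S r z)) := by
    rw [P_add hU ha haw]
    congr 1
    ring
  rw [h3] at h2
  rw [h1] at h2
  exact P_inj hU ha haw _ (Ue_inj hU isLor_1 h2)

/-- the translates of the null deformations along the null hyperplane -/
lemma key_T (r : ℝ) (z : Completion D) :
    S r (Ue Q 1 GF.one w z) = Ue Q 1 GF.one w (P Q a w r (S r z)) := by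
  obtain ⟨μ, hμ, hr⟩ : ∃ μ : ℝ, 0 < μ ∧ 0 < μ + r := by
    refine ⟨|r| + 1, by positivity, ?_⟩
    have := neg_abs_le r
    linarith
  obtain ⟨p, rfl⟩ := P_surj hU ha haw μ z
  rw [key_P hU ha haw hK hμ hr, comm_P hU ha haw hK hμ, P_add hU ha haw]
  congr 2
  ring

end rel

section perp

variable {a b : V} (hU : UStmt Q A) (ha : IsNull a) (hb : IsNull b) (hab : GF.mdot a b = 1)
  {S : ℝ → Completion D →L[ℂ] Completion D}
  (hK : ∀ w, GF.mdot a w = 0 → GF.mdot b w = 0 → ∀ (μ r : ℝ), 0 < μ → 0 < μ + r →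
    ∀ z : Completion D, S r (Ue Q 1 (nrt a (μ • w)) (w - (μ * GF.mdot w w) • a) z) =
      Ue Q 1 (nrt a ((μ + r) • w)) (w - ((μ + r) * GF.mdot w w) • a) (S r z))

include hU ha hb hab hK

/-- the null deformations commute with the translations along `a` -/
lemma comm_ta (t r : ℝ) (z : Completion D) :
    S r (Ue Q 1 GF.one (t • a) z) = Ue Q 1 GF.one (t • a) (S r z) := by
  -- a transversal vector
  obtain ⟨x, hx0, hax, hbx⟩ : ∃ x : V, x ≠ 0 ∧ GF.mdot a x = 0 ∧ GF.mdot b x = 0 := by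
    set f : V →ₗ[ℝ] ℝ × ℝ := (ml a).toLinearMap.prod (ml b).toLinearMap with hf
    have h1 : Module.finrank ℝ (ℝ × ℝ) < Module.finrank ℝ V := by
      have e1 : Module.finrank ℝ (ℝ × ℝ) = 2 := by simp
      have e2 : Module.finrank ℝ V = 4 := by
        show Module.finrank ℝ (Ix → ℝ) = 4
        simp
      rw [e1, e2]
      norm_num
    have h2 := LinearMap.ker_ne_bot_of_finrank_lt (f := f) h1
    obtain ⟨x, hx, hx0⟩ := (Submodule.ne_bot_iff _).1 h2
    have h3 : f x = 0 := hx
    have h4 : (ml a x, ml b x) = ((0 : ℝ), (0 : ℝ)) := h3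
    have h5 := congrArg Prod.fst h4
    have h6 := congrArg Prod.snd h4
    simp only [ml_apply] at h5 h6
    exact ⟨x, hx0, h5, h6⟩
  have hxx : 0 < -GF.mdot x x := by
    have h1 := H846.perp_norm ha hb hab hax hbx
    have h2 : 0 < ‖x‖ ^ 2 := by positivity
    have ha0 : 0 < a 0 := ha.2
    have hb0 : 0 < b 0 := hb.2
    have h3 : 0 < (a 0 + b 0) ^ 2 / 2 := by positivity
    by_contra hn
    push Not at hn
    nlinarith [mul_nonneg h3.le (neg_nonneg.2 hn)]
  have hax' : GF.mdot a (-x) = 0 := by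
    have := md_smul a (-1) x
    rw [neg_one_smul] at this
    rw [this, hax, mul_zero]
  have hbx' : GF.mdot b (-x) = 0 := by
    have := md_smul b (-1) x
    rw [neg_one_smul] at this
    rw [this, hbx, mul_zero]
  have hxa : GF.mdot x a = 0 := by rw [md_comm, hax]
  have hn : ∀ y z : V, GF.mdot (-y) z = -GF.mdot y z := by
    intro y z
    have := md_smul_l y (-1) z
    rw [neg_one_smul] at this
    linarith
  have hn' : ∀ y z : V, GF.mdot y (-z) = -GF.mdot y z := by
    intro y z; rw [md_comm, hn, md_comm]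
  have key : ∀ (t : ℝ) (z : Completion D), 0 < t →
      S r (Ue Q 1 GF.one (t • a) z) = Ue Q 1 GF.one (t • a) (S r z) := by
    intro t z ht
    obtain ⟨c, hcdef⟩ : ∃ c : ℝ, c = t / (-(2 * GF.mdot x x)) := ⟨_, rfl⟩
    have hc : 0 < c := by
      rw [hcdef]
      exact div_pos ht (by linarith)
    have hne : GF.mdot x x ≠ 0 := by linarith
    have hcx : c * GF.mdot x x = -(t / 2) := by
      rw [hcdef]
      field_simp
    have e : ∀ z : Completion D, P Q a x c (P Q a (-x) c z) = Ue Q 1 GF.one (t • a) z := by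
      intro z
      refine Ue_cmp hU (lor_c ha hax c) (lor_c ha hax' c) isLor_1 (fun y => ?_) z
      have e1 : -(c * GF.mdot x x) = t / 2 := by rw [hcx, neg_neg]
      have e2 : -(c * GF.mdot (-x) (-x)) = t / 2 := by rw [hn, hn', neg_neg, e1]
      rw [sim_N, sim_N, HM.sim_tr, e1, e2]
      simp only [md_add, md_sub, md_smul, md_add_l, md_sub_l, md_smul_l, hn, hn', hax, hxa, ha.1]
      funext n
      simp only [Pi.add_apply, Pi.sub_apply, Pi.smul_apply, Pi.neg_apply, smul_eq_mul]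
      ring
    rw [← e, comm_P hU ha hax (hK x hax hbx) hc, comm_P hU ha hax' (hK (-x) hax' hbx') hc, e]
  rcases lt_trichotomy t 0 with ht | ht | ht
  · have h1 := key (-t) (Ue Q 1 GF.one (t • a) z) (by linarith)
    rw [Ue_tt hU, ← add_smul, neg_add_cancel, zero_smul, Ue_one] at h1
    rw [h1, Ue_tt hU, ← add_smul, add_neg_cancel, zero_smul, Ue_one]
  · rw [ht, zero_smul, Ue_one, Ue_one]
  · exact key t z ht

lemma P_split {w : V} (haw : GF.mdot a w = 0) (c : ℝ) (z : Completion D) :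
    P Q a w c z = Ue Q 1 GF.one (-(c * GF.mdot w w) • a) (Ue Q 1 (nrt a (c • w)) 0 z) := by
  refine (Ue_cmp hU isLor_1 (lor_c ha haw c) (lor_c ha haw c) (fun x => ?_) z).symm
  rw [HM.sim_tr, sim_N, sim_N, add_zero]

/-- the null deformations commute with the null rotations that fix `a` and `b` transversal -/
lemma comm_n {w : V} (haw : GF.mdot a w = 0) (hbw : GF.mdot b w = 0) (r : ℝ)
    (z : Completion D) : S r (Ue Q 1 (nrt a w) 0 z) = Ue Q 1 (nrt a w) 0 (S r z) := by
  have h1 := comm_P hU ha haw (hK w haw hbw) one_pos r z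
  rw [P_split hU ha hb hab hK haw, P_split hU ha hb hab hK haw, comm_ta hU ha hb hab hK,
    one_smul] at h1
  exact Ue_inj hU isLor_1 h1

lemma comm_P' {w : V} (haw : GF.mdot a w = 0) (hbw : GF.mdot b w = 0) (c r : ℝ)
    (z : Completion D) : S r (P Q a w c z) = P Q a w c (S r z) := by
  rw [P_split hU ha hb hab hK haw, P_split hU ha hb hab hK haw, comm_ta hU ha hb hab hK,
    comm_n hU ha hb hab hK (by rw [md_smul, haw, mul_zero]) (by rw [md_smul, hbw, mul_zero])]

/-- the matrix of a null rotation does not see the component along `a` -/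
lemma nrt_eq {w : V} (haw : GF.mdot a w = 0) (t : ℝ) : nrt a (w + t • a) = nrt a w := by
  funext m
  rw [nrt_row, nrt_row a w, HM.H584.nrt_shift ha haw]

/-- all null rotations -/
lemma comm_nrt {w : V} (haw : GF.mdot a w = 0) (r : ℝ) (z : Completion D) :
    S r (Ue Q 1 (nrt a w) 0 z) = Ue Q 1 (nrt a w) 0 (S r z) := by
  obtain ⟨x, hx⟩ : ∃ x, x = w - GF.mdot b w • a := ⟨_, rfl⟩
  have hba : GF.mdot b a = 1 := by rw [md_comm, hab]
  have hax : GF.mdot a x = 0 := by rw [hx, md_sub, md_smul, haw, ha.1]; ring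
  have hbx : GF.mdot b x = 0 := by rw [hx, md_sub, md_smul, hba]; ring
  have hw : w = x + GF.mdot b w • a := by rw [hx]; abel
  have e : nrt a w = nrt a x := by
    conv_lhs => rw [hw]
    exact nrt_eq hU ha hb hab hK hax _
  rw [e]
  exact comm_n hU ha hb hab hK hax hbx r z

/-- the translation law -/
lemma ptr {w : V} (haw : GF.mdot a w = 0) (r : ℝ) (z : Completion D) :
    S r (Ue Q 1 GF.one w z) =
      Ue Q 1 GF.one w (S r (Ue Q 1 (nrt a (r • w)) (-(r * GF.mdot w w) • a) z)) := by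
  obtain ⟨x, hx⟩ : ∃ x, x = w - GF.mdot b w • a := ⟨_, rfl⟩
  obtain ⟨t, ht⟩ : ∃ t, t = GF.mdot b w := ⟨_, rfl⟩
  have hba : GF.mdot b a = 1 := by rw [md_comm, hab]
  have hwa : GF.mdot w a = 0 := by rw [md_comm, haw]
  have hax : GF.mdot a x = 0 := by rw [hx, md_sub, md_smul, haw, ha.1]; ring
  have hbx : GF.mdot b x = 0 := by rw [hx, md_sub, md_smul, hba]; ring
  have hw : w = x + t • a := by rw [hx, ht]; abel
  have hxa : GF.mdot x a = 0 := by rw [md_comm, hax]
  have hww : GF.mdot w w = GF.mdot x x := by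
    rw [hw]
    simp only [md_add, md_add_l, md_smul, md_smul_l, hax, hxa, ha.1]
    ring
  have e1 : nrt a (r • w) = nrt a (r • x) := by
    have h1 : r • w = r • x + (r * t) • a := by rw [hw, smul_add, smul_smul]
    rw [h1]
    exact nrt_eq hU ha hb hab hK (by rw [md_smul, hax, mul_zero]) _
  have e2 : ∀ z : Completion D, Ue Q 1 (nrt a (r • w)) (-(r * GF.mdot w w) • a) z =
      P Q a x r z := by
    intro z
    rw [e1, hww]
    rfl
  have e3 : ∀ z : Completion D, Ue Q 1 GF.one w z =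
      Ue Q 1 GF.one x (Ue Q 1 GF.one (t • a) z) := by
    intro z
    rw [Ue_tt hU, ← hw]
  have e4 : Ue Q 1 GF.one (t • a) (P Q a x r z) = P Q a x r (Ue Q 1 GF.one (t • a) z) := by
    refine Ue_eq4 hU isLor_1 (lor_c ha hax r) (lor_c ha hax r) isLor_1 (fun y => ?_) z
    rw [HM.sim_tr, HM.sim_tr, sim_N, sim_N]
    simp only [md_add, md_sub, md_smul, md_add_l, md_sub_l, md_smul_l, hax, hxa, ha.1]
    funext n
    simp only [Pi.add_apply, Pi.sub_apply, Pi.smul_apply, smul_eq_mul]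
    ring
  rw [e2, e3, e3, key_T hU ha hax (hK x hax hbx), ← comm_P' hU ha hb hab hK hax hbx, ← e4,
    comm_ta hU ha hb hab hK]

end perp

/-- **block G3** -/
theorem g3b (hE : EStmt (Completion D)) (hU : UStmt Q A)
    (S : V → V → ℝ → Completion D →L[ℂ] Completion D) : G3Block Q A 𝒜 S := by
  intro h hN
  have hK : ∀ a b, IsNull a → IsNull b → GF.mdot a b = 1 → ∀ w, GF.mdot a w = 0 →
      GF.mdot b w = 0 → ∀ (μ r : ℝ), 0 < μ → 0 < μ + r → ∀ z : Completion D,
      S a b r (Ue Q 1 (nrt a (μ • w)) (w - (μ * GF.mdot w w) • a) z) =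
        Ue Q 1 (nrt a ((μ + r) • w)) (w - ((μ + r) * GF.mdot w w) • a) (S a b r z) := by
    intro a b ha hb hab w haw hbw μ r hμ hr z
    obtain ⟨hNd, ⟨E⟩, hF⟩ := hN a b ha hb hab
    exact key_g hE hU h ha hb hab hNd E hF haw hbw hμ hr z
  refine { nrot := ?_, trans := ?_, indep := ?_, ptr := ?_ }
  · intro a b w c z ha hb hab haw
    exact (comm_nrt hU ha hb hab (hK a b ha hb hab) haw c z).symm
  · intro a b r c z ha hb hab
    exact (comm_ta hU ha hb hab (hK a b ha hb hab) r c z).symm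
  · intro a b b' c ha hb hb' hab hab'
    have hba : GF.mdot b a = 1 := by rw [md_comm, hab]
    obtain ⟨w, hw⟩ : ∃ w, w = (1 / 2 : ℝ) • (b' - b - GF.mdot b b' • a) := ⟨_, rfl⟩
    have haw : GF.mdot a w = 0 := by
      rw [hw]
      simp only [md_smul, md_sub, hab, hab', ha.1]
      ring
    have hbw : GF.mdot b w = 0 := by
      rw [hw]
      simp only [md_smul, md_sub, hb.1, hba]
      ring
    have hww : GF.mdot w w = -(1 / 2) * GF.mdot b b' := by
      rw [hw]
      simp only [md_smul, md_sub, md_smul_l, md_sub_l, hb.1, hb'.1, ha.1, hab, hab', hba,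
        md_comm b' b, md_comm b' a]
      ring
    have hL := isLor_nrt ha haw
    have hLa : sim 1 (nrt a w) 0 a = (1 : ℝ) • a := by rw [nrt_fix ha haw, one_smul]
    have hLb : (1 : ℝ) • sim 1 (nrt a w) 0 b = b' := by
      rw [sim_nrt, md_comm w b, hbw, hab, hww, hw]
      module
    have h2 : G2Stmt Q A 𝒜 S := g2 hE hU (fun a b ha hb hab => (hN a b ha hb hab).2) S
    refine ContinuousLinearMap.ext fun z => ?_
    obtain ⟨p, rfl⟩ := Ue_surj hU hL 0 z
    have h3 := h2 h (fun a b ha hb hab => (hN a b ha hb hab).1) 1 (nrt a w) 1 a b a b' c p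
      one_pos one_pos hL ha hb ha hb' hab hab' hLa hLb
    rw [div_one, one_mul] at h3
    rw [← h3]
    exact comm_nrt hU ha hb hab (hK a b ha hb hab) haw c p
  · intro a b w c z ha hb hab haw
    exact ptr hU ha hb hab (hK a b ha hb hab) haw c z

end Vale.Agent.P352.BW.H26

namespace Vale.Agent.P352.BW

variable {D : Type*} [NormedAddCommGroup D] [InnerProductSpace ℂ D] {Q : GF.Theory D}
  {A : (GF.V → GF.V) → D → D}
  {𝒜 : Set GF.V → VonNeumannAlgebra (UniformSpace.Completion D)}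

/-- **block G3** -/
theorem g3block (S : GF.V → GF.V → ℝ → UniformSpace.Completion D →L[ℂ]
    UniformSpace.Completion D) : G3Block Q A 𝒜 S :=
  fun h => H26.g3b eblock (ublock h.toRep) S h

end Vale.Agent.P352.BW

end
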