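import Vale.Agent.P352.BW.H26.G3
import Vale.Agent.P352.BW.S0.Grp0

/-!
# P352 BW: the light cone relation of the null deformations, limit and law
-/

set_option linter.all false

noncomputable section

open MeasureTheory Filter Topology

namespace Vale.Agent.P352.BW.H26L

open GF (Ix V Fn Fld Theory IsLor bas eta o sim)
open H246 H496 H755 H15
open Vale.Agent.P132 (ModData)
open UniformSpace (Completion)

/-! ### Isometries and limits -/

section lim

variable {H : Type*} [NormedAddCommGroup H]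

lemma tends_iso {l : Filter ℝ} {F : ℝ → H → H}
    (hF : ∀ᶠ t in l, ∀ x y, ‖F t x - F t y‖ = ‖x - y‖) {g : ℝ → H} {z w : H}
    (hg : Tendsto g l (𝓝 z)) (hz : Tendsto (fun t => F t z) l (𝓝 w)) :
    Tendsto (fun t => F t (g t)) l (𝓝 w) := by
  have h1 : Tendsto (fun t => F t (g t) - F t z) l (𝓝 0) := by
    rw [tendsto_zero_iff_norm_tendsto_zero]
    have h2 : Tendsto (fun t => ‖g t - z‖) l (𝓝 0) := by
      have := (hg.sub_const z).norm
      simpa using this
    refine h2.congr' ?_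
    filter_upwards [hF] with t ht
    rw [ht]
  have h2 := h1.add hz
  rw [zero_add] at h2
  refine h2.congr fun t => ?_
  abel

end lim

variable {D : Type*} [NormedAddCommGroup D] [InnerProductSpace ℂ D] {Q : Theory D}
  {A : (V → V) → D → D} {𝒜 : Set V → VonNeumannAlgebra (Completion D)}

lemma tends_all {l : Filter ℝ} {F : ℝ → Completion D → Completion D}
    (hF : ∀ᶠ t in l, ∀ x y, ‖F t x - F t y‖ = ‖x - y‖)
    (hv : ∀ v : D, Tendsto (fun t => F t (v : Completion D)) l (𝓝 (v : Completion D)))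
    (z : Completion D) : Tendsto (fun t => F t z) l (𝓝 z) := by
  rw [Metric.tendsto_nhds]
  intro ε hε
  obtain ⟨v, hvz⟩ := Completion.denseRange_coe.exists_dist_lt z (by positivity : 0 < ε / 3)
  have h1 := Metric.tendsto_nhds.1 (hv v) (ε / 3) (by positivity)
  filter_upwards [h1, hF] with t ht htF
  have h2 : dist (F t z) (F t (v : Completion D)) = dist z (v : Completion D) := by
    rw [dist_eq_norm, dist_eq_norm, htF]
  calc dist (F t z) z ≤ dist (F t z) (F t (v : Completion D)) +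
        dist (F t (v : Completion D)) (v : Completion D) + dist (v : Completion D) z :=
      dist_triangle4 _ _ _ _
    _ < ε / 3 + ε / 3 + ε / 3 := by
      rw [h2]
      have h3 : dist (v : Completion D) z < ε / 3 := by rw [dist_comm]; exact hvz
      linarith
    _ = ε := by ring

lemma Ue_iso (hU : UStmt Q A) {s : ℝ} (hs : 0 < s) {L : Ix → V} (hL : IsLor L) (x : V)
    (z w : Completion D) : ‖Ue Q s L x z - Ue Q s L x w‖ = ‖z - w‖ := by
  obtain ⟨W, hW⟩ := hU.lin s L x hs hL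
  rw [← hW, ← hW, ← map_sub, LinearIsometryEquiv.norm_map]

/-- strong continuity along curves of similitudes through the identity -/
lemma tends_Ue (hU : UStmt Q A) (R : Rep Q A) (s : ℝ → ℝ) (L : ℝ → Ix → V) (x : ℝ → V)
    (X : V → V) (h1 : s 0 = 1) (h2 : L 0 = GF.one) (h3 : x 0 = 0)
    (h4 : ∀ e, 0 < s e ∧ IsLor (L e))
    (h5 : ∀ n y, HasDerivAt (fun e => sim (s e) (L e) (x e) y n) (X y n) 0)
    (z : Completion D) : Tendsto (fun e => Ue Q (s e) (L e) (x e) z) (𝓝 0) (𝓝 z) := by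
  have h0 : ∀ᶠ t in 𝓝 (0 : ℝ), ∀ y w : Completion D,
      ‖Ue Q (s t) (L t) (x t) y - Ue Q (s t) (L t) (x t) w‖ = ‖y - w‖ :=
    Eventually.of_forall fun t y w => Ue_iso hU (h4 t).1 (h4 t).2 (x t) y w
  refine tends_all (F := fun e => Ue Q (s e) (L e) (x e)) h0 (fun v => ?_) z
  have h6 := (R.der s L x X v h1 h2 h3 h4 h5).continuousAt
  have h7 : ContinuousAt (fun e => ((Q.U (s e) (L e) (x e) v : D) : Completion D)) 0 :=
    (Completion.continuous_coe D).continuousAt.comp h6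
  have h8 : ((Q.U (s 0) (L 0) (x 0) v : D) : Completion D) = v := by
    have h9 := hU.coe 1 GF.one 0 v one_pos isLor_one
    rw [h1, h2, h3, ← h9, Ue_one]
  have h9 : Tendsto (fun e => ((Q.U (s e) (L e) (x e) v : D) : Completion D)) (𝓝 0)
      (𝓝 (v : Completion D)) := by
    have h10 := h7.tendsto
    rwa [h8] at h10
  refine h9.congr fun e => ?_
  rw [hU.coe (s e) (L e) (x e) v (h4 e).1 (h4 e).2]

variable {a b : V}

lemma bst_zz (a b : V) : bst a b 0 0 = GF.one := by
  funext m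
  simp [bst, GF.one]

/-- translations -/
lemma tends_tr (hU : UStmt Q A) (R : Rep Q A) (z : Completion D) :
    Tendsto (fun t : ℝ => Ue Q 1 GF.one (t • b) z) (𝓝 0) (𝓝 z) := by
  refine tends_Ue hU R (fun _ => 1) (fun _ => GF.one) (fun t => t • b) (fun _ => b) rfl rfl
    (zero_smul _ _) (fun _ => ⟨one_pos, isLor_one⟩) (fun n y => ?_) z
  have h1 : (fun e : ℝ => sim 1 GF.one (e • b) y n) = fun e : ℝ => y n + e * b n := by
    funext e
    rw [HM.sim_tr]
    rfl
  rw [h1]
  simpa using ((hasDerivAt_id (0 : ℝ)).mul_const (b n)).const_add (y n)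

/-- the combined similitude with parameter `t`, `s = 1 + r t` -/
def cs (r t : ℝ) : ℝ := if 0 < 1 + r * t then 1 + r * t else 1

lemma cs_pos (r t : ℝ) : 0 < cs r t := by
  unfold cs
  split_ifs with h
  · exact h
  · exact one_pos

lemma cs_zero (r : ℝ) : cs r 0 = 1 := by
  unfold cs
  rw [mul_zero, add_zero, if_pos one_pos]

lemma cs_ev (r : ℝ) : ∀ᶠ t in 𝓝 (0 : ℝ), cs r t = 1 + r * t := by
  have h : ∀ᶠ t in 𝓝 (0 : ℝ), 0 < 1 + r * t := by
    have h1 : ContinuousAt (fun t : ℝ => 1 + r * t) 0 := by fun_prop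
    exact h1.eventually (lt_mem_nhds (by norm_num))
  filter_upwards [h] with t ht
  exact if_pos ht

lemma cs_der (r : ℝ) : HasDerivAt (cs r) r 0 := by
  have h1 : HasDerivAt (fun t : ℝ => 1 + r * t) r 0 := by
    simpa using ((hasDerivAt_id (0 : ℝ)).const_mul r).const_add 1
  exact h1.congr_of_eventuallyEq (cs_ev r)

lemma isLor_cs (ha : IsNull a) (hb : IsNull b) (hab : GF.mdot a b = 1) (m : ℝ) (hm : 0 < m) :
    IsLor (bst a b (m⁻¹ - 1) (m - 1)) := by
  refine isLor_bst ha hb hab ?_ ?_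
  · have := inv_pos.2 hm
    linarith
  · rw [add_sub_cancel, add_sub_cancel, inv_mul_cancel₀ hm.ne']

/-- the combined curve tends to the identity -/
lemma tends_C (hU : UStmt Q A) (R : Rep Q A) (ha : IsNull a) (hb : IsNull b)
    (hab : GF.mdot a b = 1) (r : ℝ) (z : Completion D) :
    Tendsto (fun t : ℝ => Ue Q (cs r t) (bst a b ((cs r t)⁻¹ - 1) (cs r t - 1))
      (-(t * cs r t) • b) z) (𝓝 0) (𝓝 z) := by
  refine tends_Ue hU R (cs r) (fun t => bst a b ((cs r t)⁻¹ - 1) (cs r t - 1))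
    (fun t => -(t * cs r t) • b)
    (fun x => r • x + ((-r) * GF.mdot b x) • a + (r * GF.mdot a x) • b - b) (cs_zero r) ?_ ?_
    (fun e => ⟨cs_pos r e, isLor_cs ha hb hab _ (cs_pos r e)⟩) (fun n y => ?_) z
  · show bst a b ((cs r 0)⁻¹ - 1) (cs r 0 - 1) = GF.one
    rw [cs_zero, inv_one, sub_self, bst_zz]
  · show -((0 : ℝ) * cs r 0) • b = 0
    rw [zero_mul, neg_zero, zero_smul]
  · have e1 : (fun e : ℝ => sim (cs r e) (bst a b ((cs r e)⁻¹ - 1) (cs r e - 1))
        (-(e * cs r e) • b) y n) = fun e : ℝ => cs r e * (y n +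
          ((cs r e)⁻¹ - 1) * GF.mdot b y * a n + (cs r e - 1) * GF.mdot a y * b n) +
          -(e * cs r e) * b n := by
      funext e
      rw [HM.sim_at, sim_s, sim_bst]
      simp only [Pi.add_apply, Pi.smul_apply, smul_eq_mul]
    rw [e1]
    have h0 := cs_der r
    have h1 := h0.inv (by rw [cs_zero]; exact one_ne_zero)
    have h2 := ((((h1.sub_const 1).mul_const (GF.mdot b y)).mul_const (a n)).const_add (y n)).add
      (((h0.sub_const 1).mul_const (GF.mdot a y)).mul_const (b n))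
    have h3 := (h0.mul h2).add ((((hasDerivAt_id (0 : ℝ)).mul h0).neg).mul_const (b n))
    refine h3.congr_deriv ?_
    simp only [cs_zero, Pi.add_apply, Pi.sub_apply, Pi.smul_apply, Pi.inv_apply, smul_eq_mul, id]
    ring

/-- the Lorentz transformation is determined by the formula -/
lemma L_eq {L : Ix → V} {α β : ℝ} (h : ∀ x, sim 1 L 0 x = x + (α * GF.mdot b x) • a +
    (β * GF.mdot a x) • b) : L = bst a b α β := by
  funext m
  rw [H26.sim_row L m, H26.sim_row (bst a b α β) m, h, sim_bst]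

/-- the boost, the translation and the dilation in one similitude -/
lemma C_eq (hU : UStmt Q A) (ha : IsNull a) (hb : IsNull b) (hab : GF.mdot a b = 1) {m : ℝ}
    (hm : 0 < m) (t : ℝ) (z : Completion D) :
    Ue Q 1 (bst a b (m⁻¹ - 1) (m - 1)) 0 (Ue Q 1 GF.one (-(t • b)) (Ue Q m GF.one 0 z)) =
      Ue Q m (bst a b (m⁻¹ - 1) (m - 1)) (-(t * m) • b) z := by
  have hL := isLor_cs ha hb hab m hm
  rw [hU.mul 1 GF.one _ m GF.one 0 z one_pos hm isLor_one isLor_one,
    hU.mul 1 _ 0 (1 * m) _ _ z one_pos (by rw [one_mul]; exact hm) hL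
      (by
        have e : (fun k => sim 1 GF.one 0 (GF.one k)) = GF.one := by
          funext k
          rw [H26.sim_one0]
        rw [e]
        exact isLor_one)]
  have e1 : (fun k => sim 1 (bst a b (m⁻¹ - 1) (m - 1)) 0 (sim 1 GF.one 0 (GF.one k))) =
      bst a b (m⁻¹ - 1) (m - 1) := by
    funext k
    rw [H26.sim_one0, H26.sim_row (bst a b (m⁻¹ - 1) (m - 1)) k]
    rfl
  have e2 : sim 1 (bst a b (m⁻¹ - 1) (m - 1)) 0 (sim 1 GF.one (-(t • b)) 0) = -(t * m) • b := by
    rw [HM.sim_tr, zero_add, sim_bst]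
    have hbb : GF.mdot b (-(t • b)) = 0 := by
      rw [← neg_smul, md_smul, hb.1, mul_zero]
    have hab' : GF.mdot a (-(t • b)) = -t := by
      rw [← neg_smul, md_smul, hab, mul_one]
    rw [hbb, hab', mul_zero, zero_smul, add_zero, ← neg_smul, ← add_smul]
    congr 1
    ring
  rw [e1, e2, one_mul, one_mul]

variable {S : V → ℝ → Completion D →L[ℂ] Completion D}

lemma S_iso (h : Grp0 Q 𝒜 S) (ha : IsNull a) (c : ℝ) (z w : Completion D) :
    ‖S a c z - S a c w‖ = ‖z - w‖ := by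
  rw [← map_sub]
  have h1 := h.inn a c (z - w) (z - w) ha
  rw [inner_self_eq_norm_sq_to_K, inner_self_eq_norm_sq_to_K] at h1
  have h2 : ‖S a c (z - w)‖ ^ 2 = ‖z - w‖ ^ 2 := by exact_mod_cast h1
  exact (pow_left_inj₀ (norm_nonneg _) (norm_nonneg _) two_ne_zero).1 h2

/-- **The limit `t → 0`**: the unitary group of the light cone is the null deformation -/
theorem lim_eq (hU : UStmt Q A) (R : Rep Q A) (h : Grp0 Q 𝒜 S) (ha : IsNull a) (hb : IsNull b)
    (hab : GF.mdot a b = 1) (S' : ℝ → Completion D → Completion D)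
    (hR : ∀ (r t : ℝ) (L : Ix → V) z, 0 < t → 0 < 1 + r * t → IsLor L →
      (∀ x, sim 1 L 0 x = x + (((1 + r * t)⁻¹ - 1) * GF.mdot b x) • a +
        (r * t * GF.mdot a x) • b) →
      S' r z = Ue Q 1 GF.one (t • b) (S a (r / (2 * (1 + r * t))) (Ue Q 1 L 0
        (Ue Q 1 GF.one (-(t • b)) (Ue Q (1 + r * t) GF.one 0 z))))) (r : ℝ)
    (z : Completion D) : S' r z = S a (r / 2) z := by
  have hC := (tends_C (b := b) hU R ha hb hab r z).mono_left
    (nhdsWithin_le_nhds : 𝓝[>] (0 : ℝ) ≤ 𝓝 0)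
  -- the null deformations
  have hS1 : Tendsto (fun t : ℝ => S a (r / (2 * (1 + r * t))) z) (𝓝[>] 0)
      (𝓝 (S a (r / 2) z)) := by
    have h1 : ContinuousAt (fun t : ℝ => r / (2 * (1 + r * t))) 0 :=
      ContinuousAt.div (by fun_prop) (by fun_prop) (by norm_num)
    have h2 := ((h.cont a z ha).continuousAt.comp h1).tendsto
    have h3 : S a (r / (2 * (1 + r * 0))) z = S a (r / 2) z := by
      congr 2
      ring
    have h4 : Tendsto (fun t : ℝ => S a (r / (2 * (1 + r * t))) z) (𝓝 0)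
        (𝓝 (S a (r / 2) z)) := by
      have h5 := h2
      simp only [Function.comp_def] at h5
      rwa [h3] at h5
    exact h4.mono_left nhdsWithin_le_nhds
  have hS2 : Tendsto (fun t : ℝ => S a (r / (2 * (1 + r * t))) (Ue Q (cs r t)
      (bst a b ((cs r t)⁻¹ - 1) (cs r t - 1)) (-(t * cs r t) • b) z)) (𝓝[>] 0)
      (𝓝 (S a (r / 2) z)) :=
    tends_iso (F := fun t => S a (r / (2 * (1 + r * t))))
      (Eventually.of_forall fun t x y => S_iso h ha _ x y) hC hS1
  have hT : Tendsto (fun t : ℝ => Ue Q 1 GF.one (t • b) (S a (r / 2) z)) (𝓝[>] 0)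
      (𝓝 (S a (r / 2) z)) := (tends_tr hU R _).mono_left nhdsWithin_le_nhds
  have hT2 : Tendsto (fun t : ℝ => Ue Q 1 GF.one (t • b) (S a (r / (2 * (1 + r * t)))
      (Ue Q (cs r t) (bst a b ((cs r t)⁻¹ - 1) (cs r t - 1)) (-(t * cs r t) • b) z)))
      (𝓝[>] 0) (𝓝 (S a (r / 2) z)) :=
    tends_iso (F := fun t => Ue Q 1 GF.one (t • b))
      (Eventually.of_forall fun t x y => Ue_iso hU one_pos isLor_one _ x y) hS2 hT
  have hev : ∀ᶠ t in 𝓝[>] (0 : ℝ), Ue Q 1 GF.one (t • b) (S a (r / (2 * (1 + r * t)))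
      (Ue Q (cs r t) (bst a b ((cs r t)⁻¹ - 1) (cs r t - 1)) (-(t * cs r t) • b) z)) =
      S' r z := by
    have h1 : ∀ᶠ t in 𝓝[>] (0 : ℝ), cs r t = 1 + r * t :=
      (cs_ev r).filter_mono nhdsWithin_le_nhds
    filter_upwards [h1, self_mem_nhdsWithin] with t ht htp
    have hp : 0 < 1 + r * t := by rw [← ht]; exact cs_pos r t
    rw [ht, ← C_eq hU ha hb hab hp t z]
    refine (hR r t _ z htp hp (isLor_cs ha hb hab _ hp) fun x => ?_).symm
    rw [sim_bst]
    congr 2
    ring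
  exact tendsto_nhds_unique (tendsto_const_nhds.congr' (hev.mono fun t ht => ht.symm)) hT2

/-- **The law**: the null deformations and the similitudes obey the relations of the conformal
group -/
theorem law_of (hU : UStmt Q A) (R : Rep Q A) (h : Grp0 Q 𝒜 S) (ha : IsNull a) (hb : IsNull b)
    (hab : GF.mdot a b = 1) (S' : ℝ → Completion D → Completion D)
    (hR : ∀ (r t : ℝ) (L : Ix → V) z, 0 < t → 0 < 1 + r * t → IsLor L →
      (∀ x, sim 1 L 0 x = x + (((1 + r * t)⁻¹ - 1) * GF.mdot b x) • a +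
        (r * t * GF.mdot a x) • b) →
      S' r z = Ue Q 1 GF.one (t • b) (S a (r / (2 * (1 + r * t))) (Ue Q 1 L 0
        (Ue Q 1 GF.one (-(t • b)) (Ue Q (1 + r * t) GF.one 0 z))))) (t c : ℝ)
    (L : Ix → V) (z : Completion D) (hp : 0 < 1 + 2 * c * t)
    (hL : ∀ x, sim 1 L 0 x = x + (((1 + 2 * c * t)⁻¹ - 1) * GF.mdot b x) • a +
      (2 * c * t * GF.mdot a x) • b) :
    Ue Q 1 GF.one (-(t • b)) (S a c z) =
      S a (c / (1 + 2 * c * t)) (Ue Q (1 + 2 * c * t) L (-(t * (1 + 2 * c * t)) • b) z) := by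
  have hbst : ∀ {m : ℝ} {L : Ix → V}, (∀ x, sim 1 L 0 x = x + ((m⁻¹ - 1) * GF.mdot b x) • a +
      ((m - 1) * GF.mdot a x) • b) → L = bst a b (m⁻¹ - 1) (m - 1) := fun h => L_eq h
  -- positive translations
  have hpos : ∀ (t c : ℝ) (z : Completion D), 0 < t → 0 < 1 + 2 * c * t →
      Ue Q 1 GF.one (-(t • b)) (S a c z) = S a (c / (1 + 2 * c * t)) (Ue Q (1 + 2 * c * t)
        (bst a b ((1 + 2 * c * t)⁻¹ - 1) (1 + 2 * c * t - 1))
        (-(t * (1 + 2 * c * t)) • b) z) := by
    intro t c z ht hp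
    have hL := isLor_cs ha hb hab _ hp
    have h1 := hR (2 * c) t _ z ht hp hL (fun x => by
      rw [sim_bst]
      congr 2
      ring)
    rw [lim_eq hU R h ha hb hab S' hR (2 * c) z, C_eq hU ha hb hab hp t z] at h1
    have e1 : 2 * c / 2 = c := by ring
    have e2 : 2 * c / (2 * (1 + 2 * c * t)) = c / (1 + 2 * c * t) := by
      rw [mul_div_mul_left _ _ two_ne_zero]
    rw [e1, e2] at h1
    rw [h1, H26.Ue_tt hU, neg_add_cancel, Ue_one]
  rcases lt_trichotomy t 0 with ht | ht | ht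
  · -- negative translations
    have hLe : L = bst a b ((1 + 2 * c * t)⁻¹ - 1) (1 + 2 * c * t - 1) :=
      hbst fun x => by rw [hL x]; congr 2; ring
    have hLl : IsLor L := by rw [hLe]; exact isLor_cs ha hb hab _ hp
    set m := 1 + 2 * c * t with hm
    have hm0 : m ≠ 0 := hp.ne'
    have hp1 : 1 + 2 * (c / m) * (-t) = m⁻¹ := by
      field_simp
      rw [hm]
      ring
    have h1 := hpos (-t) (c / m) (Ue Q m L (-(t * m) • b) z) (by linarith)
      (by rw [hp1]; exact inv_pos.2 hp)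
    rw [hp1] at h1
    have e1 : c / m / m⁻¹ = c := by field_simp
    have e2 : -((-t) • b) = t • b := by rw [neg_smul, neg_neg]
    rw [e1, e2] at h1
    have h2 : Ue Q m⁻¹ (bst a b (m⁻¹⁻¹ - 1) (m⁻¹ - 1)) (-(-t * m⁻¹) • b)
        (Ue Q m L (-(t * m) • b) z) = z := by
      have hL1 := isLor_cs ha hb hab _ (inv_pos.2 hp)
      have hba : GF.mdot b a = 1 := by rw [md_comm, hab]
      rw [hU.mul _ _ _ _ _ _ z (inv_pos.2 hp) hp hL1 hLl, inv_mul_cancel₀ hm0]
      have e3 : ∀ x, sim 1 (bst a b (m⁻¹⁻¹ - 1) (m⁻¹ - 1)) 0 (sim 1 L 0 x) = x := by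
        intro x
        rw [hLe, sim_bst, sim_bst]
        simp only [md_add, md_smul, ha.1, hb.1, hab, hba, inv_inv, mul_zero, mul_one, add_zero]
        have e5 : (m⁻¹ - 1) + (m - 1) * (1 + (m⁻¹ - 1)) = 0 := by
          field_simp
          ring
        have e6 : (m - 1) + (m⁻¹ - 1) * (1 + (m - 1)) = 0 := by
          field_simp
          ring
        have e7 : x + ((m⁻¹ - 1) * GF.mdot b x) • a + ((m - 1) * GF.mdot a x) • b +
            ((m - 1) * (GF.mdot b x + (m⁻¹ - 1) * GF.mdot b x)) • a +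
            ((m⁻¹ - 1) * (GF.mdot a x + (m - 1) * GF.mdot a x)) • b =
            x + (((m⁻¹ - 1) + (m - 1) * (1 + (m⁻¹ - 1))) * GF.mdot b x) • a +
            (((m - 1) + (m⁻¹ - 1) * (1 + (m - 1))) * GF.mdot a x) • b := by module
        rw [e7, e5, e6]
        simp
      have e4 : (fun k => sim 1 (bst a b (m⁻¹⁻¹ - 1) (m⁻¹ - 1)) 0 (L k)) = GF.one := by
        funext k
        rw [H26.sim_row L k, e3, H26.sim_row GF.one k, H26.sim_one0]
      have e5 : sim m⁻¹ (bst a b (m⁻¹⁻¹ - 1) (m⁻¹ - 1)) (-(-t * m⁻¹) • b) (-(t * m) • b) = 0 := by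
        rw [HM.sim_at, sim_s, sim_bst]
        simp only [md_smul, hb.1, hab, mul_zero, zero_smul, add_zero, mul_one]
        rw [← add_smul, smul_smul, ← add_smul]
        have e8 : m⁻¹ * (-(t * m) + (m⁻¹ - 1) * -(t * m)) + -(-t * m⁻¹) = 0 := by
          field_simp
          ring
        rw [e8, zero_smul]
      rw [e4, e5, Ue_one]
    rw [h2] at h1
    rw [← h1, H26.Ue_tt hU, neg_add_cancel, Ue_one]
  · subst ht
    have hLe : L = GF.one := by
      rw [L_eq hL]
      simp only [mul_zero, add_zero, inv_one, sub_self]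
      exact bst_zz a b
    subst hLe
    simp only [mul_zero, add_zero, div_one, zero_smul, neg_zero, mul_one, zero_mul, Ue_one]
  · have hLe : L = bst a b ((1 + 2 * c * t)⁻¹ - 1) (1 + 2 * c * t - 1) :=
      hbst fun x => by rw [hL x]; congr 2; ring
    rw [hLe]
    exact hpos t c z ht hp

end Vale.Agent.P352.BW.H26L

end
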