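import Vale.Agent.P352.BW.Fin2
import Vale.Agent.P352.BW.H26.G3
import Vale.Agent.P352.BW.T.Net
import Vale.Agent.P352.BW.T.O

/-!
# P352 BW: the whole chain, from local nets to conformal invariance
-/

set_option linter.all false

noncomputable section

open MeasureTheory Filter Topology

namespace Vale.Agent.P352.BW.H26

open GF H246 H496 H755 H15
open UniformSpace (Completion)
open Vale.Agent.P132 (ModData)

variable {D : Type*} [NormedAddCommGroup D] [InnerProductSpace ℂ D]
variable {Q : Theory D} {T : Ix → Ix → Fld D} {J : Ix → Fld D} {A : (V → V) → D → D}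
  {𝒜 : Set V → VonNeumannAlgebra (Completion D)}

/-- a local net has the Bisognano-Wichmann property, if the tensor fields generate -/
theorem net (hG : H846.TGen Q) (N : BW.T.LNet0 Q A 𝒜) : LNet Q A 𝒜 := BW.T.lnet_of BW.T.o hG N

/-- the null generators of a local net with the Bisognano-Wichmann property -/
theorem gen (N : LNet Q A 𝒜) (hT : Q.IsStress T) (hJ : IsVirial Q T J) :
    ∃ G : V → D → D, NG.NullGen Q T J A G ∧
      ∀ a b c, IsNull a → IsNull b → GF.mdot a b = 1 → 0 < c →
        ∃ E : ModData (𝒜 (HM.Rg a b c)) (om Q), ∀ v : D,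
          HasDerivAt (fun t : ℝ => E.U t (v : Completion D))
            ((Complex.I • (A (fun z => (2 * Real.pi) • (GF.mdot a z • b - GF.mdot b z • a)) v +
              ((2 * Real.pi * c : ℝ) : ℂ) • G a v) : D) : Completion D) 0 :=
  gen_bw' N g3block hT hJ

/-- **Conformal invariance of scale invariant local nets generated by tensor fields.** -/
theorem conf0 (hG : H846.TGen Q) (N : BW.T.LNet0 Q A 𝒜) (hT : Q.IsStress T) (hJ : IsVirial Q T J)
    (hP : ND.PCh Q T A) : N86.ConfInv Q T := by
  obtain ⟨G, h, -⟩ := gen (net hG N) hT hJ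
  exact NG.confL hT hJ h hP

end Vale.Agent.P352.BW.H26

end
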